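import Mathlib
import Vale.Agent.Lib.P031.Defs
import Vale.Agent.Lib.P031.Reduction

namespace Vale.Agent.Results.P031.OnlyLimit

open Filter Topology Vale.Agent.Lib.P031

/-- For every `c > 1` and `ε > 0` there are arbitrarily large `x` with `V(cx)/V(x) < c + ε` and
arbitrarily large `x` with `V(cx)/V(x) > c - ε`; hence the only possible limit of `V(cx)/V(x)`
is `c`. -/
theorem result (c : ℝ) (hc : 1 < c) :
    (∀ ε : ℝ, 0 < ε → ∃ᶠ x : ℝ in atTop, (V (c * x) : ℝ) / (V x : ℝ) < c + ε) ∧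
    (∀ ε : ℝ, 0 < ε → ∃ᶠ x : ℝ in atTop, c - ε < (V (c * x) : ℝ) / (V x : ℝ)) ∧
    (∀ L : ℝ, Tendsto (fun x : ℝ => (V (c * x) : ℝ) / (V x : ℝ)) atTop (𝓝 L) → L = c) :=
  ⟨fun ε hε => freq_lt c hc ε hε, fun ε hε => freq_gt c hc ε hε, fun L hL => limit_eq c hc L hL⟩

end Vale.Agent.Results.P031.OnlyLimit
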