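import Mathlib
import Vale.Agent.Lib.P031.Defs
import Vale.Agent.Lib.P031.Reduction

namespace Vale.Agent.Results.P031.TwoRatios

open Filter Topology Vale.Agent.Lib.P031

/-- Reduction of the Erdős–Hall question.  Let `c₁, c₂ > 1` be multiplicatively independent
(`log c₁ / log c₂` irrational, e.g. `2` and `3`).  If the two ratios `V(c₁ x)/V(x)` and
`V(c₂ x)/V(x)` merely converge (to any real limits) as `x → ∞`, then `V(c x)/V(x) → c` for
every real `c > 0`. -/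
theorem result (c₁ c₂ : ℝ) (h₁ : 1 < c₁) (h₂ : 1 < c₂)
    (hirr : Irrational (Real.log c₁ / Real.log c₂)) (L₁ L₂ : ℝ)
    (hL₁ : Tendsto (fun x : ℝ => (V (c₁ * x) : ℝ) / (V x : ℝ)) atTop (𝓝 L₁))
    (hL₂ : Tendsto (fun x : ℝ => (V (c₂ * x) : ℝ) / (V x : ℝ)) atTop (𝓝 L₂))
    (c : ℝ) (hc : 0 < c) :
    Tendsto (fun x : ℝ => (V (c * x) : ℝ) / (V x : ℝ)) atTop (𝓝 c) :=
  reduction c₁ c₂ h₁ h₂ hirr L₁ L₂ hL₁ hL₂ c hc

end Vale.Agent.Results.P031.TwoRatios
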