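import Mathlib
import Vale.Agent.Results.P031.OnlyLimit
import Vale.Agent.Results.P031.TwoRatios

namespace Vale.Agent.Results.P031.AllResults

open Filter Topology Vale.Agent.Lib.P031

/-- The two results on the Erdős–Hall question stated together.
(1) For every `c > 1` the ratio `V(cx)/V(x)` is frequently `< c + ε` and frequently `> c - ε`, so its
only possible limit is `c`.
(2) If `V(c₁ x)/V(x)` and `V(c₂ x)/V(x)` merely converge for two multiplicatively independent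
`c₁, c₂ > 1`, then `V(c x)/V(x) → c` for every real `c > 0`. -/
theorem result :
    (∀ c : ℝ, 1 < c →
      (∀ ε : ℝ, 0 < ε → ∃ᶠ x : ℝ in atTop, (V (c * x) : ℝ) / (V x : ℝ) < c + ε) ∧
      (∀ ε : ℝ, 0 < ε → ∃ᶠ x : ℝ in atTop, c - ε < (V (c * x) : ℝ) / (V x : ℝ)) ∧
      (∀ L : ℝ, Tendsto (fun x : ℝ => (V (c * x) : ℝ) / (V x : ℝ)) atTop (𝓝 L) → L = c)) ∧
    (∀ c₁ c₂ : ℝ, 1 < c₁ → 1 < c₂ → Irrational (Real.log c₁ / Real.log c₂) →
      ∀ L₁ L₂ : ℝ, Tendsto (fun x : ℝ => (V (c₁ * x) : ℝ) / (V x : ℝ)) atTop (𝓝 L₁) →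
        Tendsto (fun x : ℝ => (V (c₂ * x) : ℝ) / (V x : ℝ)) atTop (𝓝 L₂) →
        ∀ c : ℝ, 0 < c → Tendsto (fun x : ℝ => (V (c * x) : ℝ) / (V x : ℝ)) atTop (𝓝 c)) :=
  ⟨fun c hc => OnlyLimit.result c hc,
   fun c₁ c₂ h₁ h₂ hirr L₁ L₂ hL₁ hL₂ c hc => TwoRatios.result c₁ c₂ h₁ h₂ hirr L₁ L₂ hL₁ hL₂ c hc⟩

end Vale.Agent.Results.P031.AllResults
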